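import Crest.Agent.N250.Cv.Jet
import Crest.Agent.N250.Tr.Pull

/-!
# Row 250 (helper21): API of `Conv`

Monotonicity, reindexing, local congruence, uniqueness, pull-back under moving similarities
(freezing along `t_k → t`, parabolic rescaling with moving centre and scale), sequential criterion.
-/

set_option autoImplicit false
open MeasureTheory Set Filter Topology
open scoped ContDiff InnerProductSpace
open Crest.GeometryTopology.MCF

noncomputable section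

namespace Crest.Agent.N250.Cv

open Tr

variable {α β : Type} {l : Filter α} {Fk Gk : α → Mv} {F G : Mv} {Ω Ω' W : Set ST} {φ : ST → ℝ}

theorem loc_mono (h : F.Loc W φ) {W' : Set ST} (hW' : IsOpen W') (hs : W' ⊆ W) : F.Loc W' φ :=
  ⟨hW', h.sm.mono hs, fun q hq => h.ne q (hs hq), fun q hq => h.mem q (hs hq),
    fun q hq => h.n_eq q (hs hq), fun q hq => h.V_eq q (hs hq)⟩

theorem conv_mono (H : Conv l Fk F Ω) (h : Ω' ⊆ Ω) : Conv l Fk F Ω' :=
  ⟨fun p hp => H.away p (h hp), fun p hp => H.near p (h hp)⟩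





/-- the near clause on a smaller neighbourhood -/
theorem near_sub (H : Conv l Fk F Ω) {p : ST} (hp : p ∈ Ω) (hM : p ∈ F.M) {U : Set ST}
    (hU : U ∈ 𝓝 p) : ∃ (W : Set ST) (φ : ST → ℝ) (φk : α → ST → ℝ), p ∈ W ∧ W ⊆ U ∧ F.Loc W φ ∧
    (∀ᶠ k in l, (Fk k).Loc W (φk k)) ∧
    ∀ m : ℕ, TendstoLocallyUniformlyOn (fun k => iteratedFDeriv ℝ m (φk k))
      (iteratedFDeriv ℝ m φ) l W := by
  obtain ⟨W, φ, φk, a, b, c, d⟩ := H.near p hp hM
  obtain ⟨V, h1, h2, h3⟩ := mem_nhds_iff.1 hU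
  have ho := b.isOpen.inter h2
  exact ⟨W ∩ V, φ, φk, ⟨a, h3⟩, inter_subset_right.trans h1, loc_mono b ho inter_subset_left,
    c.mono fun k x => loc_mono x ho inter_subset_left, fun m => (d m).mono inter_subset_left⟩

/-- same track, normal and speed inside `U` -/
structure Agree (F G : Mv) (U : Set ST) : Prop where
  mem : ∀ q ∈ U, q ∈ F.M ↔ q ∈ G.M
  n : ∀ q ∈ U, q ∈ F.M → F.n q = G.n q
  V : ∀ q ∈ U, q ∈ F.M → F.V q = G.V q

theorem Agree.loc {U : Set ST} (h : Agree F G U) (hl : F.Loc W φ) (hs : W ⊆ U) : G.Loc W φ :=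
  ⟨hl.isOpen, hl.sm, hl.ne, fun q hq => (h.mem q (hs hq)).symm.trans (hl.mem q hq),
    fun q hq hM => by
      have := (h.mem q (hs hq)).2 hM
      rw [← h.n q (hs hq) this, hl.n_eq q hq this],
    fun q hq hM => by
      have := (h.mem q (hs hq)).2 hM
      rw [← h.V q (hs hq) this, hl.V_eq q hq this]⟩


theorem Agree.symm {U : Set ST} (h : Agree F G U) : Agree G F U :=
  ⟨fun q hq => (h.mem q hq).symm, fun q hq hM => (h.n q hq ((h.mem q hq).2 hM)).symm,
    fun q hq hM => (h.V q hq ((h.mem q hq).2 hM)).symm⟩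

/-- local congruence -/
theorem conv_congr (H : Conv l Fk F Ω)
    (h : ∀ p ∈ Ω, ∃ U ∈ 𝓝 p, Agree F G U ∧ ∀ᶠ k in l, Agree (Fk k) (Gk k) U) :
    Conv l Gk G Ω := by
  refine ⟨fun p hp hM => ?_, fun p hp hM => ?_⟩
  · obtain ⟨U, a, b, c⟩ := h p hp
    obtain ⟨V, d, e⟩ := H.away p hp fun x => hM ((b.mem p (mem_of_mem_nhds a)).1 x)
    refine ⟨U ∩ V, inter_mem a d, ?_⟩
    filter_upwards [c, e] with k x y
    exact disjoint_left.2 fun q hq hk => disjoint_left.1 y hq.2 ((x.mem q hq.1).2 hk)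
  · obtain ⟨U, a, b, c⟩ := h p hp
    obtain ⟨W, φ, φk, h1, h2, h3, h4, h5⟩ :=
      near_sub H hp ((b.mem p (mem_of_mem_nhds a)).2 hM) a
    exact ⟨W, φ, φk, h1, b.loc h3 h2, by filter_upwards [c, h4] with k x y using x.loc y h2, h5⟩


/-- points of the limit are limits of points -/
theorem conv_pts (H : Conv l Fk F Ω) {p : ST} (hp : p ∈ Ω) (hM : p ∈ F.M) {tk : α → ℝ}
    (htk : Tendsto tk l (𝓝 p.2)) :
    ∃ xk : α → E, Tendsto xk l (𝓝 p.1) ∧ ∀ᶠ k in l, (xk k, tk k) ∈ (Fk k).M := by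
  obtain ⟨W, φ, φk, hW, h, hk, ht⟩ := H.near p hp hM
  exact exists_pts h hk ht hW hM htk



/-- pull-back under moving similarities -/
theorem conv_pull (H : Conv l Fk F Ω) {sk : α → Sim} {s : Sim} (hG : Pull s F G)
    (hk : ∀ᶠ k in l, Pull (sk k) (Fk k) (Gk k)) (ho : IsOpen Ω')
    (hU : ∀ p ∈ Ω', p ∈ s.U ∧ s.map p ∈ Ω ∧ ∀ᶠ y in l ×ˢ 𝓝 p, y.2 ∈ (sk y.1).U)
    (hJ : ∀ p ∈ Ω', JC (l ×ˢ 𝓝 p) (fun y => (sk y.1).map) Prod.snd s.map p) :
    Conv l Gk G Ω' := by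
  refine ⟨fun p hp hM => ?_, fun p hp hM => ?_⟩
  · obtain ⟨U, a, b⟩ := H.away _ (hU p hp).2.1 fun x => hM ((hG.mem p).2 ⟨(hU p hp).1, x⟩)
    obtain ⟨A, hA, B, hB, hAB⟩ := eventually_prod_iff.1 ((hJ p hp).val.eventually a)
    refine ⟨_, hB, ?_⟩
    filter_upwards [hA, b, hk] with k x y z
    exact disjoint_left.2 fun q hq hM => disjoint_left.1 y (hAB x hq) (z.M hM)
  · obtain ⟨W, φ, φk, a, b, c, d⟩ := H.near _ (hU p hp).2.1 (hG.M hM)
    obtain ⟨A, hA, B, hB, hAB⟩ := eventually_prod_iff.1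
      (((hJ p hp).val.eventually (b.isOpen.mem_nhds a)).and (hU p hp).2.2)
    have hl := hG.loc b
    obtain ⟨V, h1, h2, h3⟩ := mem_nhds_iff.1 (inter_mem (inter_mem hB (ho.mem_nhds hp))
      (hl.isOpen.mem_nhds ⟨(hU p hp).1, a⟩))
    refine ⟨V, φ ∘ s.map, fun k => φk k ∘ (sk k).map, h3, loc_mono hl h2 fun q hq => (h1 hq).2,
      ?_, fun m => tlu_of_jc h2 (fun q hq => ?_) m⟩
    · filter_upwards [hA, c, hk] with k x y z
      exact loc_mono (z.loc y) h2 fun q hq => ⟨(hAB x (h1 hq).1.1).2, (hAB x (h1 hq).1.1).1⟩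
    · have J := hJ q (h1 hq).1.2
      exact (jc_prod_of_tlu b.isOpen b.sm (c.mono fun _ x => x.sm) d (h1 hq).2.2 tendsto_fst
        J.val).comp J

/-- the similarity of `freeze` -/
def sFr (t : ℝ) : Sim := ⟨0, .refl ℝ E, fun _ => 1, fun _ => t, univ⟩

theorem sFr_map (t : ℝ) : (sFr t).map = fun p => (p.1, t) := by
  funext p; simp [sFr, Sim.map]

theorem pull_sFr (F : Mv) (t : ℝ) : Pull (sFr t) F (F.freeze t) :=
  ⟨⟨isOpen_univ, fun _ _ => one_pos, fun _ _ => contDiffAt_const, fun _ _ => contDiffAt_const⟩,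
    fun p => by simp [sFr_map, Mv.freeze, show (sFr t).U = univ from rfl],
    fun p _ => by rw [sFr_map]; rfl, fun p _ => by simp [sFr, Mv.freeze]⟩

/-- freezing along `t_k → t` -/
theorem conv_freeze (H : Conv l Fk F Ω) (ho : IsOpen Ω) {tk : α → ℝ} {t : ℝ}
    (ht : Tendsto tk l (𝓝 t)) :
    Conv l (fun k => (Fk k).freeze (tk k)) (F.freeze t) {p | (p.1, t) ∈ Ω} := by
  refine conv_pull H (sk := fun k => sFr (tk k)) (pull_sFr F t) (.of_forall fun k => pull_sFr _ _)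
    (ho.preimage (f := fun p : ST => ((p.1, t) : ST)) (by fun_prop))
    (fun p hp => ⟨trivial, by rwa [sFr_map], .of_forall fun _ => trivial⟩) fun p _ => ?_
  simp only [sFr_map]
  exact (JC.const contDiffAt_fst tendsto_snd).prodMk (JC.cst (ht.comp tendsto_fst) tendsto_snd)

/-- the similarity of `para` -/
def sPa (X : ST) (lam : ℝ) : Sim :=
  ⟨X.1, .refl ℝ E, fun _ => lam⁻¹, fun t => X.2 + t / lam ^ 2, univ⟩

theorem sPa_map (X : ST) (lam : ℝ) :
    (sPa X lam).map = fun p => (X.1 + lam⁻¹ • p.1, X.2 + p.2 / lam ^ 2) := rfl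

theorem pull_sPa (F : Mv) (X : ST) {lam : ℝ} (h : 0 < lam) : Pull (sPa X lam) F (F.para X lam) := by
  refine ⟨⟨isOpen_univ, fun _ _ => inv_pos.2 h, fun _ _ => contDiffAt_const,
    fun _ _ => contDiffAt_const.add (contDiffAt_id.div_const _)⟩,
    fun p => by simp [sPa_map, Mv.para, show (sPa X lam).U = univ from rfl],
    fun p _ => rfl, fun p _ => ?_⟩
  have : deriv (sPa X lam).θ p.2 = 1 / lam ^ 2 :=
    (((hasDerivAt_id p.2).div_const _).const_add _).deriv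
  rw [this, sPa_map]
  simp only [Mv.para, sPa, deriv_const', zero_mul, sub_zero]
  field_simp

/-- parabolic rescaling with moving centre and scale -/
theorem conv_para (H : Conv l Fk F Ω) (ho : IsOpen Ω) {Xk : α → ST} {X : ST} {lk : α → ℝ}
    {lam : ℝ} (hX : Tendsto Xk l (𝓝 X)) (hl : Tendsto lk l (𝓝 lam)) (h0 : 0 < lam) :
    Conv l (fun k => (Fk k).para (Xk k) (lk k)) (F.para X lam)
      {p | (X.1 + lam⁻¹ • p.1, X.2 + p.2 / lam ^ 2) ∈ Ω} := by
  refine conv_pull H (sk := fun k => sPa (Xk k) (lk k)) (pull_sPa F X h0)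
    ((hl.eventually (lt_mem_nhds h0)).mono fun k hk => pull_sPa _ _ hk)
    (ho.preimage (f := fun p : ST => ((X.1 + lam⁻¹ • p.1, X.2 + p.2 / lam ^ 2) : ST))
      (by fun_prop))
    (fun p hp => ⟨trivial, hp, .of_forall fun _ => trivial⟩) fun p _ => ?_
  simp only [sPa_map, div_eq_mul_inv]
  have h1 := (continuous_fst.tendsto X).comp (hX.comp (tendsto_fst (g := 𝓝 p)))
  have h2 := (continuous_snd.tendsto X).comp (hX.comp (tendsto_fst (g := 𝓝 p)))
  have h3 := hl.comp (tendsto_fst (g := 𝓝 p))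
  exact ((JC.cst h1 tendsto_snd).add ((JC.cst (h3.inv₀ h0.ne') tendsto_snd).smul
    (JC.const contDiffAt_fst tendsto_snd))).prodMk ((JC.cst h2 tendsto_snd).add
      ((JC.const contDiffAt_snd tendsto_snd).mul
        (JC.cst ((h3.pow 2).inv₀ (pow_ne_zero 2 h0.ne')) tendsto_snd)))


end Crest.Agent.N250.Cv

end
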